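import Vale.Agent.P078.AllMasa.Cov.Crude

/-! Limits of the second moments of the smoothed cells. -/

namespace Vale.Agent.P078.AllMasa

set_option linter.unusedSectionVars false

open Filter Topology ComplexOrder
open Vale.Agent.P078.Tracial

variable {M X : Type} [CStarAlgebra M] [PartialOrder M] [StarOrderedRing M]
variable [TopologicalSpace X] [CompactSpace X] [T2Space X] [TotallyDisconnectedSpace X]
variable {r : ℕ} {d : LData X r} {C : SCore M X} {hF : ∀ c, (d.F c).FromNrm C}

namespace LData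

theorem tendsto_rows (hd : d.Ok) (W : C.ops) (c : Fin r) (n : ℕ) (G a : M) :
    Tendsto (fun π : DiscreteQuotient X => ∑ c', ∑ j : π,
      C.tr (a * (C.r ((W : Module.End ℝ C(X, ℝ)) (d.P n (unitVec π c' j) c)) * G
        * C.r ((W : Module.End ℝ C(X, ℝ)) (d.P n (unitVec π c' j) c))) * star a)) atBot
      (𝓝 (ipR C G a (d.rowS C hF W c n) (d.rowS C hF W c n))) := by
  rw [ipR_apply]
  refine (tendsto_finsetSum _ fun c' _ => C.tendsto_form G a (d.rowS C hF W c n c')
    (d.rowS C hF W c n c')).congr fun π => ?_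
  simp only [SCore.cov_apply, coe_rowS, rowPow_cell hd]

theorem ipR_single (G a : M) (c : Fin r) (A : C.ops) (v : Fin r → C.ops) :
    ipR C G a (Pi.single c A) v = C.form G a A (v c) := by
  rw [ipR_apply, Finset.sum_eq_single c (fun b _ h => by simp [Pi.single_eq_of_ne h]) (by simp)]
  simp

theorem ipR_rows_le (hd : d.Ok) {G : M} (hG : 0 ≤ G) (a : M) (W : C.ops) (c : Fin r) (n : ℕ) :
    ipR C G a (d.rowS C hF W c n) (d.rowS C hF W c n) ≤
      C.form G a (W * C.mulS (d.act c)) (W * C.mulS (d.act c)) := by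
  have hR := isSemi_ipR (r := r) C hG a
  have h := (isPosContr_xV (hF := hF) hd hG a).compl.nrm_pow_le hR n
    (Pi.single c (W * C.mulS (d.act c)))
  have h2 := pow_le_pow_left₀ (CovForm.nrm_nonneg _) h 2
  rw [CovForm.nrm_sq hR, CovForm.nrm_sq hR, ipR_single, Pi.single_eq_same] at h2
  exact h2

theorem ipR_xV_symm (hd : d.Ok) {G : M} (hG : IsSelfAdjoint G) (a : M) (u v : Fin r → C.ops) :
    ipR C G a (d.xV C hF u) v = ipR C G a u (d.xV C hF v) := by
  have hs : ∀ u v : Fin r → C.ops, ipR C G a u v = ipR C G a v u := fun u v => by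
    simp only [ipR_apply, C.form_symm hG a]
  rw [hs u (d.xV C hF v), ipR_xV hd, ipR_xV hd, C.form_symm hG a]

theorem ipR_rows_eq (hd : d.Ok) {G : M} (hG : IsSelfAdjoint G) (a : M) (c : Fin r) (n : ℕ) :
    ipR C G a (d.rowS C hF 1 c n) (d.rowS C hF 1 c n) =
      C.form G a (C.mulS (d.act c)) (d.rowS C hF 1 c (2 * n) c) := by
  have hs : ∀ u v : Fin r → C.ops, ipR C G a (oneSub (V := Fin r → C.ops) (d.xV C hF) u) v =
      ipR C G a u (oneSub (V := Fin r → C.ops) (d.xV C hF) v) := fun u v => by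
    simp [oneSub_apply, map_sub, ipR_xV_symm hd hG a u v]
  refine (CovForm.symm_pow (V := Fin r → C.ops) hs n (Pi.single c (1 * C.mulS (d.act c)))
    (d.rowS C hF 1 c n)).trans ?_
  rw [rowS, rowS, ← Module.End.mul_apply, ← pow_add, ipR_single, one_mul, ← two_mul]

/-- The smoothed budget as an operator. -/
noncomputable def budS (d : LData X r) (C : SCore M X) (hF : ∀ c, (d.F c).FromNrm C) (n : ℕ) :
    C.ops :=
  ((oneSub (V := C.ops) (d.yS C hF)) ^ n) (C.mulS d.U)

theorem budS_L (hd : d.Ok) (n : ℕ) (w : Fin r → C(X, ℝ)) :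
    (d.budS C hF n : Module.End ℝ C(X, ℝ)) (d.L w) = d.L ((d.step ^ n) w) := by
  induction n generalizing w with
  | zero =>
    have h : ∀ c f, d.U * d.Lc c f = d.Lc c f := fun c f => by
      rw [← act_Lc hd c f, ← mul_assoc, U_mul_act hd]
    simp [budS, L_apply, map_sum, h]
  | succ n ih =>
    have e : d.L (d.step w) = d.L w - d.Tn⁻¹ • ∑ c, d.Lc c (d.Lc c (d.L w)) := by
      rw [L_apply, L_apply]
      simp [step_apply, map_sub, Finset.sum_sub_distrib, Finset.smul_sum, L_apply]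
    rw [pow_succ, Module.End.mul_apply, ← ih, e, map_sub, budS, pow_succ', Module.End.mul_apply,
      oneSub_apply, ← budS, yS, LinearMap.mulRight_apply, yOp]
    simp [map_sum]

theorem tendsto_budget (hd : d.Ok) (n : ℕ) :
    Tendsto (fun π : DiscreteQuotient X =>
      ∑ c, ∑ j : π, C.ig (d.L (d.P n (unitVec π c j)) * d.L (d.P n (unitVec π c j)))) atBot
      (𝓝 (d.Tn * C.form (C.r 1) 1 (d.budS C hF n) (d.yS C hF (d.budS C hF n)))) := by
  have hT : d.Tn ≠ 0 := (Tn_pos hd).ne'
  have e : d.Tn * C.form (C.r 1) 1 (d.budS C hF n) (d.yS C hF (d.budS C hF n)) =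
      ∑ c, C.form (C.r 1) 1 (d.budS C hF n * d.lcS C hF c) (d.budS C hF n * d.lcS C hF c) := by
    simp only [yS, yOp, LinearMap.mulRight_apply, mul_smul_comm, map_smul, smul_eq_mul,
      ← mul_assoc, mul_inv_cancel₀ hT, one_mul, Finset.mul_sum, map_sum]
    exact Finset.sum_congr rfl fun c _ => (adj_lcS hd c _ _ _ _).symm
  rw [e]
  refine (tendsto_finsetSum _ fun c _ => C.tendsto_form (C.r 1) 1 (d.budS C hF n * d.lcS C hF c)
    (d.budS C hF n * d.lcS C hF c)).congr fun π => ?_
  refine Finset.sum_congr rfl fun c _ => ?_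
  rw [C.cov_r_one]
  refine Finset.sum_congr rfl fun j _ => ?_
  have h : d.L (d.P n (unitVec π c j)) =
      (d.budS C hF n : Module.End ℝ C(X, ℝ)) (d.Lc c (cellFn π j)) := by
    have h1 : d.L (unitVec π c j) = d.Lc c (cellFn π j) := by
      rw [L_apply, Finset.sum_eq_single c (fun b _ h => by simp [unitVec, Pi.single_eq_of_ne h])
        (by simp)]
      simp [unitVec]
    rw [P, LinearMap.comp_apply, ← budS_L (C := C) (hF := hF) hd, L_cut hd, h1]
  simp [h]

theorem budget_le (hd : d.Ok) {n : ℕ} (hn : 0 < n) :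
    d.Tn * C.form (C.r 1) 1 (d.budS C hF n) (d.yS C hF (d.budS C hF n)) ≤
      d.Tn / n * C.ig d.U := by
  have hG : (0 : M) ≤ C.r 1 := C.r_nonneg zero_le_one
  have hI := C.isSemi_form hG 1
  have hx := isPosContr_yS (hF := hF) hd hG (1 : M)
  have h : ((n : ℝ) + 1) * C.form (C.r 1) 1 (d.budS C hF n) (d.yS C hF (d.budS C hF n)) ≤
      C.form (C.r 1) 1 (C.mulS d.U) (C.mulS d.U) := hx.small hI n (C.mulS d.U)
  have h0 := hx.nonneg (d.budS C hF n)
  have hU : C.form (C.r 1) 1 (C.mulS d.U) (C.mulS d.U) = C.ig d.U := by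
    rw [C.form_mulS _ _ (C.r_isSelfAdjoint _), C.Er_r, mul_one, one_mul, star_one, mul_one,
      SCore.ig]
    congr 2
    ext x
    rcases hd.U_01 x with h | h <;> simp [h]
  rw [hU] at h
  have hn' : (0 : ℝ) < n := Nat.cast_pos.2 hn
  rw [div_mul_eq_mul_div, le_div_iff₀ hn']
  nlinarith [Tn_pos hd]

end LData

end Vale.Agent.P078.AllMasa
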