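import Vale.Agent.P078.AllMasa.Cov.Rows

/-! A crude bound for the cells pushed through combinations of weighted translations. -/

namespace Vale.Agent.P078.AllMasa

set_option linter.unusedSectionVars false

open Filter Topology ComplexOrder
open Vale.Agent.P078.Tracial

variable {M X : Type} [CStarAlgebra M] [PartialOrder M] [StarOrderedRing M]
variable [TopologicalSpace X] [CompactSpace X] [T2Space X] [TotallyDisconnectedSpace X]

/-- A weighted translation with a left inverse on the support of the weight. -/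
def IsWT (A : Module.End ℝ C(X, ℝ)) : Prop :=
  ∃ (g : C(X, ℝ)) (τ σ : C(X, X)), (∀ x, g x ≠ 0 → σ (τ x) = x) ∧ ∀ f, A f = g * f.comp τ

/-- The span of the weighted translations. -/
noncomputable def wtSpan (X : Type) [TopologicalSpace X] :
    Submodule ℝ (Module.End ℝ C(X, ℝ)) :=
  Submodule.span ℝ {A | IsWT A}

theorem mul_mem_wtSpan {A B : Module.End ℝ C(X, ℝ)} (hA : A ∈ wtSpan X) (hB : B ∈ wtSpan X) :
    A * B ∈ wtSpan X := by
  induction hA using Submodule.span_induction with
  | mem A hA =>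
    induction hB using Submodule.span_induction with
    | mem B hB =>
      obtain ⟨g, τ, σ, h, hA⟩ := hA
      obtain ⟨g', τ', σ', h', hB⟩ := hB
      refine Submodule.subset_span ⟨g * g'.comp τ, τ'.comp τ, σ.comp σ', fun x hx => ?_, fun f => ?_⟩
      · simp only [ContinuousMap.mul_apply, ContinuousMap.comp_apply, ne_eq, mul_eq_zero,
          not_or] at hx ⊢
        rw [h' _ hx.2, h x hx.1]
      · rw [Module.End.mul_apply, hA, hB]
        ext x
        simp [mul_assoc]
    | zero => simp
    | add x y _ _ hx hy => rw [mul_add]; exact (wtSpan X).add_mem hx hy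
    | smul c x _ hx => rw [mul_smul_comm]; exact (wtSpan X).smul_mem c hx
  | zero => simp
  | add x y _ _ hx hy => rw [add_mul]; exact (wtSpan X).add_mem hx hy
  | smul c x _ hx => rw [smul_mul_assoc]; exact (wtSpan X).smul_mem c hx

theorem mulC_mem_wtSpan (h : C(X, ℝ)) : mulC h ∈ wtSpan X :=
  Submodule.subset_span ⟨h, ContinuousMap.id X, ContinuousMap.id X, fun _ _ => rfl, fun f => by
    simp⟩

theorem Tl_mem_wtSpan (p : PMap X) : p.Tl ∈ wtSpan X := by
  classical
  refine Submodule.subset_span ⟨p.d, p.τ, p.σ, fun x hx => p.left_inv x ?_, fun f => rfl⟩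
  by_contra h
  exact hx (by simp [PMap.d_apply, h])

theorem LData.Lc_mem_wtSpan {r : ℕ} (d : LData X r) (c : Fin r) : d.Lc c ∈ wtSpan X := by
  rw [LData.Lc_eq]
  refine mul_mem_wtSpan (mul_mem_wtSpan (mulC_mem_wtSpan _)
    ((wtSpan X).sub_mem (mulC_mem_wtSpan _) ?_)) (mulC_mem_wtSpan _)
  exact (wtSpan X).sum_mem fun k _ => mul_mem_wtSpan (mulC_mem_wtSpan _) (Tl_mem_wtSpan _)

theorem LData.rowPow_mem_wtSpan {r : ℕ} (d : LData X r) {W : Module.End ℝ C(X, ℝ)}
    (hW : W ∈ wtSpan X) (c : Fin r) (n : ℕ) (c' : Fin r) : d.rowPow W c n c' ∈ wtSpan X := by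
  induction n generalizing c' with
  | zero =>
    rw [LData.rowPow]
    by_cases h : c' = c
    · subst h; rw [Pi.single_eq_same]; exact mul_mem_wtSpan hW (mulC_mem_wtSpan _)
    · rw [Pi.single_eq_of_ne h]; exact (wtSpan X).zero_mem
  | succ n ih =>
    rw [LData.rowPow, LData.rowStep]
    exact (wtSpan X).sub_mem (ih c') ((wtSpan X).smul_mem _ (mul_mem_wtSpan
      ((wtSpan X).sum_mem fun k _ => mul_mem_wtSpan (ih k) (d.Lc_mem_wtSpan k))
      (d.Lc_mem_wtSpan c')))

theorem exists_crude_of_mem_wtSpan (C : SCore M X) {A : Module.End ℝ C(X, ℝ)}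
    (hA : A ∈ wtSpan X) :
    ∃ K : ℝ, 0 ≤ K ∧ ∀ Q : C(X, ℝ) →ₗ[ℝ] C(X, ℝ), (∀ f, 0 ≤ f → 0 ≤ Q f) →
      ∀ π₀ : DiscreteQuotient X, ∀ᶠ π : DiscreteQuotient X in atBot,
        ∑ j : π, C.ig (Q (A (cellFn π j)) * Q (A (cellFn π j)))
          ≤ K * ∑ i : π₀, C.ig (Q (cellFn π₀ i) * Q (cellFn π₀ i)) := by
  induction hA using Submodule.span_induction with
  | mem A hA =>
    obtain ⟨g, τ, σ, hσ, hA⟩ := hA
    refine ⟨‖g‖ ^ 2, sq_nonneg _, fun Q hQ π₀ => ?_⟩
    filter_upwards [eventually_le_atBot (π₀.comap σ)] with π hπ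
    classical
    set i' : π → π₀ := fun j => π₀.proj (σ (Function.surjInv π.proj_surjective j))
    let ga : C(X, ℝ) := ⟨fun x => |g x|, g.continuous.abs⟩
    set w : π → C(X, ℝ) := fun j => ga * (cellFn π j).comp τ
    have hmono : ∀ {u v : C(X, ℝ)}, u ≤ v → ∀ x, Q u x ≤ Q v x := fun {u v} huv x => by
      have := ContinuousMap.le_def.1 (hQ (v - u) (sub_nonneg.2 huv)) x
      simpa [map_sub] using this
    have hw : ∀ j x, |Q (A (cellFn π j)) x| ≤ Q (w j) x := fun j x => by
      refine abs_le.2 ⟨?_, hmono (ContinuousMap.le_def.2 fun y => ?_) x⟩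
      · have h : -(w j) ≤ A (cellFn π j) := ContinuousMap.le_def.2 fun y => by
          rw [hA]
          rcases cellFn_zero_or_one π j (τ y) with h | h <;> simp [w, ga, h, neg_abs_le]
        simpa using hmono h x
      · rw [hA]
        rcases cellFn_zero_or_one π j (τ y) with h | h <;> simp [w, ga, h, le_abs_self]
    have hcell : ∀ i, ∑ j ∈ Finset.univ.filter (fun j => i' j = i), w j ≤
        ‖g‖ • cellFn π₀ i := fun i => by
      refine ContinuousMap.le_def.2 fun x => ?_
      simp only [ContinuousMap.coe_sum, Finset.sum_apply, w, ContinuousMap.mul_apply,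
        ContinuousMap.comp_apply, cellFn_apply, mul_ite, mul_one, mul_zero, Finset.sum_ite_eq,
        Finset.mem_filter, Finset.mem_univ, true_and, ContinuousMap.smul_apply, smul_eq_mul]
      by_cases hg : g x = 0
      · simp [ga, hg]; split_ifs <;> simp
      have hc : i' (π.proj (τ x)) = π₀.proj x := by
        conv_rhs => rw [← hσ x hg]
        have h1 : (π₀.comap σ).proj (Function.surjInv π.proj_surjective (π.proj (τ x))) =
            (π₀.comap σ).proj (τ x) := by
          rw [← DiscreteQuotient.ofLE_proj hπ, ← DiscreteQuotient.ofLE_proj hπ,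
            Function.surjInv_eq π.proj_surjective]
        exact Quotient.sound (Quotient.exact (s := (π₀.comap σ).toSetoid) h1)
      rw [hc]
      split_ifs
      · exact g.norm_coe_le_norm x
      · exact le_rfl
    rw [← Finset.sum_fiberwise Finset.univ i', Finset.mul_sum]
    refine Finset.sum_le_sum fun i _ => ?_
    rw [← C.ig_sum, ← C.ig_smul]
    refine C.ig_mono (ContinuousMap.le_def.2 fun x => ?_)
    simp only [ContinuousMap.coe_sum, Finset.sum_apply, ContinuousMap.smul_apply, smul_eq_mul,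
      ContinuousMap.mul_apply]
    have hnn : ∀ j, 0 ≤ Q (w j) x := fun j => le_trans (abs_nonneg _) (hw j x)
    calc ∑ j ∈ Finset.univ.filter (fun j => i' j = i),
          Q (A (cellFn π j)) x * Q (A (cellFn π j)) x
        ≤ ∑ j ∈ Finset.univ.filter (fun j => i' j = i), Q (w j) x ^ 2 :=
          Finset.sum_le_sum fun j _ => by
            rw [← abs_mul_abs_self, sq]
            exact mul_self_le_mul_self (abs_nonneg _) (hw j x)
      _ ≤ (∑ j ∈ Finset.univ.filter (fun j => i' j = i), Q (w j) x) ^ 2 :=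
          Finset.sum_sq_le_sq_sum_of_nonneg fun j _ => hnn j
      _ ≤ (‖g‖ * Q (cellFn π₀ i) x) ^ 2 := by
          refine pow_le_pow_left₀ (Finset.sum_nonneg fun j _ => hnn j) ?_ 2
          have := hmono (hcell i) x
          simpa [map_sum] using this
      _ = _ := by ring
  | zero => exact ⟨0, le_rfl, fun Q hQ π₀ => Eventually.of_forall fun π => by simp [C.ig_zero]⟩
  | add A B _ _ hA hB =>
    obtain ⟨K, hK, hA⟩ := hA
    obtain ⟨K', hK', hB⟩ := hB
    refine ⟨2 * K + 2 * K', by positivity, fun Q hQ π₀ => ?_⟩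
    filter_upwards [hA Q hQ π₀, hB Q hQ π₀] with π ha hb
    have h : ∀ u v : C(X, ℝ), C.ig ((u + v) * (u + v)) ≤ 2 * C.ig (u * u) + 2 * C.ig (v * v) := by
      intro u v
      rw [← C.ig_smul, ← C.ig_smul, ← C.ig_add]
      refine C.ig_mono (ContinuousMap.le_def.2 fun x => ?_)
      simp only [ContinuousMap.mul_apply, ContinuousMap.add_apply, ContinuousMap.smul_apply,
        smul_eq_mul]
      nlinarith [sq_nonneg (u x - v x)]
    simp only [LinearMap.add_apply, map_add]
    refine (Finset.sum_le_sum fun j _ => h _ _).trans ?_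
    rw [Finset.sum_add_distrib, ← Finset.mul_sum, ← Finset.mul_sum]
    linarith
  | smul c A _ hA =>
    obtain ⟨K, hK, hA⟩ := hA
    refine ⟨c ^ 2 * K, mul_nonneg (sq_nonneg c) hK, fun Q hQ π₀ => ?_⟩
    filter_upwards [hA Q hQ π₀] with π ha
    simp only [LinearMap.smul_apply, map_smul, smul_mul_assoc, mul_smul_comm, smul_smul,
      C.ig_smul, ← Finset.mul_sum]
    rw [← sq, mul_assoc]
    exact mul_le_mul_of_nonneg_left ha (sq_nonneg c)

end Vale.Agent.P078.AllMasa
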