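import Vale.Agent.P078.AllMasa.Cov.Nrm
import Vale.Agent.P078.Tracial.CovForm

/-! The covariance form on combinations of weighted normalising translations. -/

namespace Vale.Agent.P078.AllMasa

set_option linter.unusedSectionVars false

open Filter Topology ComplexOrder
open Vale.Agent.P078.Tracial

variable {M X : Type} [CStarAlgebra M] [PartialOrder M] [StarOrderedRing M]
variable [TopologicalSpace X] [CompactSpace X] [T2Space X] [TotallyDisconnectedSpace X]

/-- Multiplication by a function. -/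
noncomputable def mulC (h : C(X, ℝ)) : Module.End ℝ C(X, ℝ) := LinearMap.mulLeft ℝ h

@[simp] theorem mulC_apply (h f : C(X, ℝ)) : mulC h f = h * f := rfl

/-- A translation as a linear map. -/
noncomputable def PMap.Tl (p : PMap X) : Module.End ℝ C(X, ℝ) where
  toFun := p.T
  map_add' := p.T_add
  map_smul' := p.T_smul

@[simp] theorem PMap.Tl_apply (p : PMap X) (f : C(X, ℝ)) : p.Tl f = p.T f := rfl

/-- The operator of a family as a linear map. -/
noncomputable def Fam.Kl (F : Fam X) : Module.End ℝ C(X, ℝ) :=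
  ∑ k, mulC (F.g k) * (F.p k).Tl

@[simp] theorem Fam.Kl_apply (F : Fam X) (f : C(X, ℝ)) : F.Kl f = F.K f := by
  simp [Fam.Kl, Fam.K]

theorem PMap.symm_T_T (p : PMap X) (f : C(X, ℝ)) : p.symm.T (p.T f) = p.symm.d * f := by
  classical
  ext x
  simp only [PMap.T, ContinuousMap.mul_apply, ContinuousMap.comp_apply, PMap.d_apply, PMap.symm]
  split_ifs with h1 h2
  · simp [p.right_inv x h1]
  · exact absurd (p.map_rng x h1) h2
  all_goals simp

theorem PMap.T_mul_d (p : PMap X) (f : C(X, ℝ)) : p.T f * p.d = p.T f := by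
  classical
  ext x
  simp only [PMap.T, ContinuousMap.mul_apply, ContinuousMap.comp_apply, PMap.d_apply]
  split_ifs <;> simp

/-- A weighted conjugation by a normalising partial isometry. -/
def IsMono (C : SCore M X) (A : Module.End ℝ C(X, ℝ)) : Prop :=
  ∃ g v, IsNrm C v ∧ ∀ f, C.r (A f) = C.r g * (v * C.r f * star v)

theorem isMono_mulC (C : SCore M X) (h : C(X, ℝ)) : IsMono C (mulC h) :=
  ⟨h, 1, IsNrm.one, fun f => by simp [C.r_mul]⟩

theorem isMono_mulC_Tl (C : SCore M X) {v : M} {p : PMap X} (hv : Implements C v p)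
    (g : C(X, ℝ)) : IsMono C (mulC g * p.Tl) :=
  ⟨g, v, hv.nrm, fun f => by simp [C.r_mul, hv.left]⟩

theorem IsMono.mul {C : SCore M X} {A B : Module.End ℝ C(X, ℝ)} (hA : IsMono C A)
    (hB : IsMono C B) : IsMono C (A * B) := by
  obtain ⟨g, v, hv, hA⟩ := hA
  obtain ⟨h, w, hw, hB⟩ := hB
  obtain ⟨k, hk⟩ := hv.left h
  refine ⟨g * k, v * w, hv.mul hw, fun f => ?_⟩
  calc C.r ((A * B) f) = C.r g * (v * (C.r h * (w * C.r f * star w)) * star v) := by
        rw [Module.End.mul_apply, hA, hB]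
    _ = C.r g * ((v * C.r h * star v * v) * (w * C.r f * star w) * star v) := by
        rw [hv.conj_mul]; simp only [mul_assoc]
    _ = _ := by rw [hk, C.r_mul, star_mul]; simp only [mul_assoc]

namespace SCore

variable (C : SCore M X)

/-- The span of the weighted conjugations. -/
noncomputable def opsM : Submodule ℝ (Module.End ℝ C(X, ℝ)) :=
  Submodule.span ℝ {A | IsMono C A}

theorem one_mem_opsM : (1 : Module.End ℝ C(X, ℝ)) ∈ C.opsM := by
  refine Submodule.subset_span ⟨1, 1, IsNrm.one, fun f => ?_⟩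
  simp [C.r_one]

theorem mul_mem_opsM {A B : Module.End ℝ C(X, ℝ)} (hA : A ∈ C.opsM) (hB : B ∈ C.opsM) :
    A * B ∈ C.opsM := by
  induction hA using Submodule.span_induction with
  | mem A hA =>
    induction hB using Submodule.span_induction with
    | mem B hB => exact Submodule.subset_span (hA.mul hB)
    | zero => simp
    | add x y _ _ hx hy => rw [mul_add]; exact C.opsM.add_mem hx hy
    | smul c x _ hx => rw [mul_smul_comm]; exact C.opsM.smul_mem c hx
  | zero => simp
  | add x y _ _ hx hy => rw [add_mul]; exact C.opsM.add_mem hx hy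
  | smul c x _ hx => rw [smul_mul_assoc]; exact C.opsM.smul_mem c hx

/-- The algebra of combinations of weighted conjugations. -/
noncomputable def ops : Subalgebra ℝ (Module.End ℝ C(X, ℝ)) :=
  C.opsM.toSubalgebra C.one_mem_opsM fun _ _ => C.mul_mem_opsM

theorem mem_ops {A : Module.End ℝ C(X, ℝ)} : A ∈ C.ops ↔ A ∈ C.opsM := Iff.rfl

/-- Multiplication inside the algebra. -/
noncomputable def mulS (h : C(X, ℝ)) : C.ops :=
  ⟨mulC h, Submodule.subset_span (isMono_mulC C h)⟩

@[simp] theorem coe_mulS (h : C(X, ℝ)) : (C.mulS h : Module.End ℝ C(X, ℝ)) = mulC h := rfl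

theorem mulS_mul (g h : C(X, ℝ)) : C.mulS g * C.mulS h = C.mulS (g * h) :=
  Subtype.ext (LinearMap.ext fun f => by simp [mul_assoc])

theorem mulS_add (g h : C(X, ℝ)) : C.mulS (g + h) = C.mulS g + C.mulS h :=
  Subtype.ext (LinearMap.ext fun f => by simp [add_mul])

theorem mulS_smul (c : ℝ) (g : C(X, ℝ)) : C.mulS (c • g) = c • C.mulS g :=
  Subtype.ext (LinearMap.ext fun f => by simp)

theorem mulS_one : C.mulS 1 = 1 := Subtype.ext (LinearMap.ext fun f => by simp)

theorem mulS_sum {α : Type*} (s : Finset α) (g : α → C(X, ℝ)) :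
    C.mulS (∑ i ∈ s, g i) = ∑ i ∈ s, C.mulS (g i) :=
  map_sum (AddMonoidHom.mk' C.mulS C.mulS_add) g s

/-- A weighted translation inside the algebra. -/
noncomputable def transS {v : M} {p : PMap X} (hv : Implements C v p) (g : C(X, ℝ)) : C.ops :=
  ⟨mulC g * p.Tl, Submodule.subset_span (isMono_mulC_Tl C hv g)⟩

@[simp] theorem coe_transS {v : M} {p : PMap X} (hv : Implements C v p) (g : C(X, ℝ)) :
    (C.transS hv g : Module.End ℝ C(X, ℝ)) = mulC g * p.Tl := rfl

/-- The covariance of two operators on the cells of a partition. -/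
noncomputable def cov (π : DiscreteQuotient X) (G a : M) :
    Module.End ℝ C(X, ℝ) →ₗ[ℝ] Module.End ℝ C(X, ℝ) →ₗ[ℝ] ℝ :=
  LinearMap.mk₂ ℝ
    (fun A B => ∑ j : π, C.tr (a * (C.r (A (cellFn π j)) * G * C.r (B (cellFn π j))) * star a))
    (fun A A' B => by
      simp only [LinearMap.add_apply, C.r_add, add_mul, mul_add, C.tr_add, Finset.sum_add_distrib])
    (fun c A B => by
      simp only [LinearMap.smul_apply, C.r_smul, smul_mul_assoc, mul_smul_comm, C.tr_smul,
        Finset.mul_sum, smul_eq_mul])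
    (fun A B B' => by
      simp only [LinearMap.add_apply, C.r_add, add_mul, mul_add, C.tr_add, Finset.sum_add_distrib])
    (fun c A B => by
      simp only [LinearMap.smul_apply, C.r_smul, smul_mul_assoc, mul_smul_comm, C.tr_smul,
        Finset.mul_sum, smul_eq_mul])

theorem cov_apply (π : DiscreteQuotient X) (G a : M) (A B : Module.End ℝ C(X, ℝ)) :
    C.cov π G a A B =
      ∑ j : π, C.tr (a * (C.r (A (cellFn π j)) * G * C.r (B (cellFn π j))) * star a) := rfl

theorem cov_swap (π : DiscreteQuotient X) (G a : M) (A B : Module.End ℝ C(X, ℝ)) :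
    C.cov π G a A B = C.cov π (star G) a B A := by
  refine Finset.sum_congr rfl fun j _ => ?_
  rw [← C.tr_star]
  simp only [star_mul, star_star, C.star_r, mul_assoc]

theorem cov_r_one (π : DiscreteQuotient X) (f : C(X, ℝ)) (A B : Module.End ℝ C(X, ℝ)) :
    C.cov π (C.r f) 1 A B = ∑ j : π, C.ig (f * (A (cellFn π j) * B (cellFn π j))) := by
  refine Finset.sum_congr rfl fun j _ => ?_
  rw [one_mul, star_one, mul_one, ← C.r_mul, ← C.r_mul, ig]
  congr 2
  ring

theorem cov_self_nonneg (π : DiscreteQuotient X) {G : M} (hG : 0 ≤ G) (a : M)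
    (A : Module.End ℝ C(X, ℝ)) : 0 ≤ C.cov π G a A A := by
  refine Finset.sum_nonneg fun j _ => C.tr_nonneg (star_right_conjugate_nonneg ?_ a)
  simpa [C.star_r] using star_left_conjugate_nonneg hG (C.r (A (cellFn π j)))

theorem tendsto_cov_of {G a : M} {A B : Module.End ℝ C(X, ℝ)} {P Q R S : M}
    (hA : ∀ f, C.r (A f) = P * C.r f * Q) (hB : ∀ f, C.r (B f) = R * C.r f * S) :
    Tendsto (fun π => C.cov π G a A B) atBot
      (𝓝 (C.tr (a * (P * C.ι (C.E (Q * G * R)) * S) * star a))) := by
  have h := (Complex.continuous_re.tendsto _).comp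
    (C.pinch_tendsto (a * P) (Q * G * R) (S * star a))
  have e : a * (P * C.ι (C.E (Q * G * R)) * S) * star a =
      a * P * C.ι (C.E (Q * G * R)) * (S * star a) := by simp only [mul_assoc]
  rw [e]
  refine h.congr fun π => ?_
  simp only [cov_apply, hA, hB]
  simp only [Function.comp_apply, SCore.tr, SCore.r, map_sum, Complex.re_sum,
    Finset.mul_sum, Finset.sum_mul, mul_assoc]

theorem exists_cov_lim (G a : M) {A B : Module.End ℝ C(X, ℝ)} (hA : A ∈ C.ops) (hB : B ∈ C.ops) :
    ∃ l, Tendsto (fun π => C.cov π G a A B) atBot (𝓝 l) := by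
  rw [mem_ops] at hA hB
  induction hA using Submodule.span_induction with
  | mem A hA =>
    induction hB using Submodule.span_induction with
    | mem B hB =>
      obtain ⟨g, v, -, hA⟩ := hA
      obtain ⟨h, w, -, hB⟩ := hB
      exact ⟨_, C.tendsto_cov_of (P := C.r g * v) (Q := star v) (R := C.r h * w) (S := star w)
        (fun f => by rw [hA]; simp only [mul_assoc]) (fun f => by rw [hB]; simp only [mul_assoc])⟩
    | zero => exact ⟨0, by simp⟩
    | add x y _ _ hx hy =>
      obtain ⟨l, hl⟩ := hx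
      obtain ⟨l', hl'⟩ := hy
      exact ⟨l + l', by simpa using hl.add hl'⟩
    | smul c x _ hx =>
      obtain ⟨l, hl⟩ := hx
      exact ⟨c * l, by simpa using hl.const_mul c⟩
  | zero => exact ⟨0, by simp⟩
  | add x y _ _ hx hy =>
    obtain ⟨l, hl⟩ := hx
    obtain ⟨l', hl'⟩ := hy
    exact ⟨l + l', by simpa using hl.add hl'⟩
  | smul c x _ hx =>
    obtain ⟨l, hl⟩ := hx
    exact ⟨c * l, by simpa using hl.const_mul c⟩

/-- The limiting covariance. -/
noncomputable def covLim (G a : M) (A B : C.ops) : ℝ :=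
  limUnder (atBot : Filter (DiscreteQuotient X)) fun π =>
    C.cov π G a (A : Module.End ℝ C(X, ℝ)) (B : Module.End ℝ C(X, ℝ))

theorem tendsto_covLim (G a : M) (A B : C.ops) :
    Tendsto (fun π => C.cov π G a (A : Module.End ℝ C(X, ℝ)) (B : Module.End ℝ C(X, ℝ))) atBot
      (𝓝 (C.covLim G a A B)) :=
  tendsto_nhds_limUnder (C.exists_cov_lim G a A.2 B.2)

/-- The limiting covariance as a form. -/
noncomputable def form (G a : M) : C.ops →ₗ[ℝ] C.ops →ₗ[ℝ] ℝ :=
  LinearMap.mk₂ ℝ (C.covLim G a)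
    (fun A A' B => tendsto_nhds_unique (C.tendsto_covLim G a (A + A') B)
      (by simpa using (C.tendsto_covLim G a A B).add (C.tendsto_covLim G a A' B)))
    (fun c A B => tendsto_nhds_unique (C.tendsto_covLim G a (c • A) B)
      (by simpa using (C.tendsto_covLim G a A B).const_mul c))
    (fun A B B' => tendsto_nhds_unique (C.tendsto_covLim G a A (B + B'))
      (by simpa using (C.tendsto_covLim G a A B).add (C.tendsto_covLim G a A B')))
    (fun c A B => tendsto_nhds_unique (C.tendsto_covLim G a A (c • B))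
      (by simpa using (C.tendsto_covLim G a A B).const_mul c))

theorem tendsto_form (G a : M) (A B : C.ops) :
    Tendsto (fun π => C.cov π G a (A : Module.End ℝ C(X, ℝ)) (B : Module.End ℝ C(X, ℝ))) atBot
      (𝓝 (C.form G a A B)) :=
  C.tendsto_covLim G a A B

theorem form_swap (G a : M) (A B : C.ops) : C.form G a A B = C.form (star G) a B A :=
  tendsto_nhds_unique (C.tendsto_form G a A B)
    ((C.tendsto_form (star G) a B A).congr fun π => (C.cov_swap π G a _ _).symm)

theorem form_symm {G : M} (hG : IsSelfAdjoint G) (a : M) (A B : C.ops) :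
    C.form G a A B = C.form G a B A := by
  rw [form_swap, hG.star_eq]

theorem isSemi_form {G : M} (hG : 0 ≤ G) (a : M) : CovForm.IsSemi (V := C.ops) (C.form G a) :=
  ⟨C.form_symm (IsSelfAdjoint.of_nonneg hG) a, fun A =>
    ge_of_tendsto' (C.tendsto_form G a A A) fun π => C.cov_self_nonneg π hG a _⟩

theorem form_mulS (g h : C(X, ℝ)) {G : M} (hG : IsSelfAdjoint G) (a : M) :
    C.form G a (C.mulS g) (C.mulS h) = C.tr (a * C.r (g * C.Er G * h) * star a) := by
  refine tendsto_nhds_unique (C.tendsto_form G a _ _) ?_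
  have := C.tendsto_cov_of (G := G) (a := a) (A := mulC g) (B := mulC h) (P := C.r g) (Q := 1)
    (R := C.r h) (S := 1) (by simp [C.r_mul]) (by simp [C.r_mul])
  have hE : C.E (G * C.r h) = C.E G * toC h := by simpa [SCore.r] using C.E_bimod 1 (toC h) G
  have e : a * C.r (g * C.Er G * h) * star a =
      a * (C.r g * C.ι (C.E (1 * G * C.r h)) * 1) * star a := by
    rw [one_mul, mul_one, hE, C.E_eq_toC_Er hG, map_mul C.ι, C.r_mul, C.r_mul, mul_assoc (C.r g)]
    rfl
  rw [e]
  exact this

/-- Adjoints for right multiplication. -/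
def Adj (Z Z' : C.ops) : Prop :=
  ∀ (G a : M) (A B : C.ops), C.form G a (A * Z) B = C.form G a A (B * Z')

variable {C}

theorem Adj.swap {Z Z' : C.ops} (h : C.Adj Z Z') : C.Adj Z' Z := fun G a A B => by
  rw [form_swap, ← h, ← form_swap]

theorem Adj.mul {Y Y' Z Z' : C.ops} (h : C.Adj Y Y') (h' : C.Adj Z Z') :
    C.Adj (Y * Z) (Z' * Y') := fun G a A B => by
  rw [← mul_assoc, h', h, mul_assoc]

theorem Adj.add {Y Y' Z Z' : C.ops} (h : C.Adj Y Y') (h' : C.Adj Z Z') :
    C.Adj (Y + Z) (Y' + Z') := fun G a A B => by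
  simp only [mul_add, map_add, LinearMap.add_apply, h G a, h' G a]

theorem Adj.smul {Z Z' : C.ops} (h : C.Adj Z Z') (c : ℝ) : C.Adj (c • Z) (c • Z') :=
  fun G a A B => by simp only [mul_smul_comm, map_smul, LinearMap.smul_apply, h G a]

theorem Adj.sub {Y Y' Z Z' : C.ops} (h : C.Adj Y Y') (h' : C.Adj Z Z') :
    C.Adj (Y - Z) (Y' - Z') := by
  have e : ∀ W W' : C.ops, W - W' = W + (-1 : ℝ) • W' := fun W W' =>
    Subtype.ext (LinearMap.ext fun f => by simp [sub_eq_add_neg])
  rw [e, e]
  exact h.add (h'.smul _)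

theorem adj_sum {α : Type*} (s : Finset α) (Z Z' : α → C.ops) (h : ∀ i ∈ s, C.Adj (Z i) (Z' i)) :
    C.Adj (∑ i ∈ s, Z i) (∑ i ∈ s, Z' i) := fun G a A B => by
  simp only [Finset.mul_sum, map_sum, LinearMap.sum_apply]
  exact Finset.sum_congr rfl fun i hi => h i hi G a A B

theorem adj_of_conj {Z Z' : C.ops} {k k' : C(X, ℝ)} {v : M} (hv : IsNrm C v)
    (hk : C.r k' = star v * C.r k * v)
    (hZ : ∀ f, C.r ((Z : Module.End ℝ C(X, ℝ)) f) = C.r k * (v * C.r f * star v))
    (hZ' : ∀ f, C.r ((Z' : Module.End ℝ C(X, ℝ)) f) = C.r k' * (star v * C.r f * v)) :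
    C.Adj Z Z' := by
  intro G a A B
  suffices key : ∀ A ∈ C.opsM, ∀ B ∈ C.opsM, Tendsto (fun π =>
      C.cov π G a (A * (Z : Module.End ℝ C(X, ℝ))) B -
        C.cov π G a A (B * (Z' : Module.End ℝ C(X, ℝ)))) atBot (𝓝 0) from
    sub_eq_zero.1 (tendsto_nhds_unique
      ((C.tendsto_form G a (A * Z) B).sub (C.tendsto_form G a A (B * Z'))) (key _ A.2 _ B.2))
  intro A hA B hB
  induction hA using Submodule.span_induction with
  | mem A hA =>
    induction hB using Submodule.span_induction with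
    | mem B hB =>
      obtain ⟨g, u, -, hA⟩ := hA
      obtain ⟨h, w, -, hB⟩ := hB
      set x : M := star u * G * (C.r h * w) with hx
      have t1 := C.tendsto_cov_of (G := G) (a := a) (A := A * (Z : Module.End ℝ C(X, ℝ))) (B := B)
        (P := C.r g * u * (C.r k * v)) (Q := star v * star u) (R := C.r h * w) (S := star w)
        (fun f => by rw [Module.End.mul_apply, hA, hZ]; simp only [mul_assoc])
        (fun f => by rw [hB]; simp only [mul_assoc])
      have t2 := C.tendsto_cov_of (G := G) (a := a) (A := A) (B := B * (Z' : Module.End ℝ C(X, ℝ)))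
        (P := C.r g * u) (Q := star u) (R := C.r h * w * (C.r k' * star v)) (S := v * star w)
        (fun f => by rw [hA]; simp only [mul_assoc])
        (fun f => by rw [Module.End.mul_apply, hB, hZ']; simp only [mul_assoc])
      have hk' : C.r k' * star v = star v * C.r k := by
        rw [hk, mul_assoc _ v, mul_assoc _ (C.r k), ← hv.vv_comm]
        simp only [← mul_assoc, hv.star_partial]
      have hE : C.r k * v * C.ι (C.E (star v * x)) = C.ι (C.E (x * (C.r k' * star v))) * v := by
        rw [hk', mul_assoc, hv.move_E, ← mul_assoc, ← C.ι_comm_r, ← mul_assoc x]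
        have h2 : C.E (x * star v * C.r k) = C.E (x * star v) * toC k := by
          simpa [SCore.r] using C.E_bimod 1 (toC k) (x * star v)
        rw [h2, map_mul C.ι]
        rfl
      have h3 := t1.sub t2
      convert h3 using 2
      rw [eq_comm, sub_eq_zero]
      have e1 : star v * star u * G * (C.r h * w) = star v * x := by
        simp only [hx, mul_assoc]
      have e2 : star u * G * (C.r h * w * (C.r k' * star v)) = x * (C.r k' * star v) := by
        simp only [hx, mul_assoc]
      rw [e1, e2, mul_assoc (C.r g * u) (C.r k * v), hE]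
      simp only [mul_assoc]
    | zero => simp
    | add x y _ _ hx hy => simpa [add_mul, add_sub_add_comm] using hx.add hy
    | smul c x _ hx => simpa [smul_mul_assoc, mul_sub] using hx.const_mul c
  | zero => simp
  | add x y _ _ hx hy => simpa [add_mul, add_sub_add_comm] using hx.add hy
  | smul c x _ hx => simpa [smul_mul_assoc, mul_sub] using hx.const_mul c

theorem adj_mulS (h : C(X, ℝ)) : C.Adj (C.mulS h) (C.mulS h) :=
  adj_of_conj (k := h) (k' := h) IsNrm.one (by simp) (fun f => by simp [C.r_mul]) (fun f => by simp [C.r_mul])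

theorem adj_transS {v w : M} {p : PMap X} (hv : Implements C v p) (hw : Implements C w p.symm)
    (g : C(X, ℝ)) : C.Adj (C.transS hv g) (C.transS hw (p.symm.T g)) :=
  adj_of_conj hv.nrm (hv.right g).symm (fun f => by simp [C.r_mul, hv.left])
    (fun f => by simp [C.r_mul, hv.right])

variable (C)

variable {G : M} (hG : 0 ≤ G) (a : M)

include hG

theorem form_mulS_le (A : C.ops) {h : C(X, ℝ)} {c : ℝ} (hc : ∀ x, h x ≤ c) :
    C.form G a A (A * C.mulS h) ≤ c * C.form G a A A := by
  let s : C(X, ℝ) := ⟨fun x => Real.sqrt (c - h x), by fun_prop⟩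
  have hs : s * s + h = c • 1 := by
    ext x
    simp [s, Real.mul_self_sqrt (sub_nonneg.2 (hc x))]
  have h1 := (C.isSemi_form hG a).nonneg (A * C.mulS s)
  rw [adj_mulS s, mul_assoc, C.mulS_mul] at h1
  have h2 : C.form G a A (A * C.mulS (s * s)) + C.form G a A (A * C.mulS h) =
      c * C.form G a A A := by
    rw [← map_add, ← mul_add, ← C.mulS_add, hs, C.mulS_smul, C.mulS_one, mul_smul_comm, mul_one,
      map_smul, smul_eq_mul]
  linarith

theorem nrm_mulS_le (A : C.ops) {h : C(X, ℝ)} {c : ℝ} (hc0 : 0 ≤ c) (hc : ∀ x, |h x| ≤ c) :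
    CovForm.nrm (V := C.ops) (C.form G a) (A * C.mulS h) ≤ c * CovForm.nrm (V := C.ops) (C.form G a) A := by
  rw [CovForm.nrm, CovForm.nrm, adj_mulS h, mul_assoc, C.mulS_mul,
    ← Real.sqrt_sq hc0, ← Real.sqrt_mul (sq_nonneg c)]
  refine Real.sqrt_le_sqrt (C.form_mulS_le hG a A fun x => ?_)
  rw [ContinuousMap.mul_apply, ← abs_mul_abs_self, sq]
  exact mul_self_le_mul_self (abs_nonneg _) (hc x)

end SCore

/-- A family inside the algebra. -/
noncomputable def Fam.toOps (F : Fam X) (C : SCore M X) (hF : F.FromNrm C) : C.ops :=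
  ∑ k, C.transS (hF k).choose_spec (F.g k)

theorem Fam.coe_toOps (F : Fam X) (C : SCore M X) (hF : F.FromNrm C) :
    (F.toOps C hF : Module.End ℝ C(X, ℝ)) = F.Kl := by
  simp [Fam.toOps, Fam.Kl]

theorem Fam.adj_toOps {F : Fam X} (hs : F.Symm) {C : SCore M X} (hF : F.FromNrm C) :
    C.Adj (F.toOps C hF) (F.toOps C hF) := by
  obtain ⟨inv, hinv, hp, hg⟩ := hs.exists_inv
  have e : F.toOps C hF =
      ∑ k, C.transS (hF (inv k)).choose_spec (F.g (inv k)) :=
    (Fintype.sum_equiv (Function.Involutive.toPerm inv hinv) _ _ fun k => rfl).symm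
  nth_rw 2 [e]
  refine SCore.adj_sum _ _ _ fun k _ => ?_
  have hw : Implements C (hF (inv k)).choose (F.p k).symm := by
    rw [← hp k]; exact (hF (inv k)).choose_spec
  have := SCore.adj_transS (hF k).choose_spec hw (F.g k)
  have e2 : C.transS (hF (inv k)).choose_spec (F.g (inv k)) =
      C.transS hw ((F.p k).symm.T (F.g k)) := by
    refine Subtype.ext ?_
    simp [hp k, hg k]
  rwa [e2]

theorem Fam.nrm_toOps_le {F : Fam X} (hs : F.Symm) {C : SCore M X} (hF : F.FromNrm C) {B : ℝ}
    (hB0 : 0 ≤ B) (hB : ∀ x, F.K 1 x ≤ B) {G : M} (hG : 0 ≤ G) (a : M) (A : C.ops) :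
    CovForm.nrm (V := C.ops) (C.form G a) (A * F.toOps C hF) ≤ B * CovForm.nrm (V := C.ops) (C.form G a) A := by
  obtain ⟨inv, hinv, hp, hg⟩ := hs.exists_inv
  have hI := C.isSemi_form hG a
  let rt : Fin F.num → C(X, ℝ) := fun k => ⟨fun x => Real.sqrt (F.g k x), by fun_prop⟩
  have hrt : ∀ k, rt k * rt k = F.g k := fun k => by
    ext x; exact Real.mul_self_sqrt (ContinuousMap.le_def.1 (hs.g_nonneg k) x)
  have hsum : ∑ k, F.g k = F.K 1 := by
    refine Finset.sum_congr rfl fun k _ => ?_
    conv_lhs => rw [← hs.g_supp k]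
    congr 1
    ext x; simp [PMap.T]
  have hw : ∀ k, Implements C (hF (inv k)).choose (F.p k).symm := fun k => by
    rw [← hp k]; exact (hF (inv k)).choose_spec
  let Z : Fin F.num → C.ops := fun k => C.transS (hF k).choose_spec (rt k)
  let Z' : Fin F.num → C.ops := fun k => C.transS (hw k) ((F.p k).symm.T (rt k))
  have hZ : ∀ k, C.Adj (Z k) (Z' k) := fun k => SCore.adj_transS _ _ _
  set K := F.toOps C hF
  have hK : K = ∑ k, C.mulS (rt k) * Z k := by
    refine Finset.sum_congr rfl fun k _ => Subtype.ext (LinearMap.ext fun f => ?_)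
    simp [Z, ← mul_assoc, hrt]
  have hZZ : ∀ k, Z' k * Z k = C.mulS (F.g (inv k)) := fun k => by
    refine Subtype.ext (LinearMap.ext fun f => ?_)
    simp only [Z, Z', Subalgebra.coe_mul, SCore.coe_transS, SCore.coe_mulS, Module.End.mul_apply,
      mulC_apply, PMap.Tl_apply, PMap.T_mul, PMap.symm_T_T]
    rw [← mul_assoc, ← PMap.T_mul, ← mul_assoc, hrt, PMap.T_mul_d, hg]
  set n1 : C.ops → ℝ := CovForm.nrm (V := C.ops) (C.form G a)
  have h1 : n1 (A * K) ^ 2 ≤ ∑ k, n1 (A * C.mulS (rt k)) * n1 (A * K * Z' k) := by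
    rw [CovForm.nrm_sq hI]
    calc C.form G a (A * K) (A * K) = ∑ k, C.form G a (A * C.mulS (rt k) * Z k) (A * K) := by
          conv_lhs => enter [1, 2]; rw [hK, Finset.mul_sum]
          simp only [map_sum, LinearMap.sum_apply, mul_assoc]
      _ ≤ _ := Finset.sum_le_sum fun k _ => by
          rw [hZ k]
          exact le_of_abs_le (CovForm.abs_le_nrm hI _ _)
  have hX : ∑ k, n1 (A * C.mulS (rt k)) ^ 2 ≤ B * n1 A ^ 2 := by
    simp only [n1, CovForm.nrm_sq hI, SCore.adj_mulS _ _ _ _, mul_assoc, C.mulS_mul, hrt, ← map_sum,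
      ← Finset.mul_sum, ← C.mulS_sum, hsum]
    exact C.form_mulS_le hG a A hB
  have hY : ∑ k, n1 (A * K * Z' k) ^ 2 ≤ B * n1 (A * K) ^ 2 := by
    simp only [n1, CovForm.nrm_sq hI, fun k => (hZ k).swap G a]
    simp only [mul_assoc, hZZ]
    rw [← map_sum, ← Finset.mul_sum, ← Finset.mul_sum, ← C.mulS_sum,
      Fintype.sum_equiv (Function.Involutive.toPerm inv hinv) (fun k => F.g (inv k)) F.g
        fun k => rfl, hsum, ← mul_assoc]
    exact C.form_mulS_le hG a (A * K) hB
  have hn : 0 ≤ n1 A ∧ 0 ≤ n1 (A * K) := ⟨CovForm.nrm_nonneg A, CovForm.nrm_nonneg _⟩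
  have h2 := h1.trans ((Real.sum_mul_le_sqrt_mul_sqrt _ _ _).trans
    (mul_le_mul (Real.sqrt_le_sqrt hX) (Real.sqrt_le_sqrt hY) (Real.sqrt_nonneg _)
      (Real.sqrt_nonneg _)))
  rw [Real.sqrt_mul hB0, Real.sqrt_mul hB0, Real.sqrt_sq hn.1, Real.sqrt_sq hn.2] at h2
  have h3 : n1 (A * K) ^ 2 ≤ B * n1 A * n1 (A * K) := by
    refine h2.trans_eq ?_
    rw [show √B * n1 A * (√B * n1 (A * K)) = √B * √B * n1 A * n1 (A * K) by ring,
      Real.mul_self_sqrt hB0]
  rcases hn.2.eq_or_lt with h0 | h0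
  · rw [← h0]; exact mul_nonneg hB0 hn.1
  · exact le_of_mul_le_mul_right (by rwa [sq] at h3) h0

end Vale.Agent.P078.AllMasa
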