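import Vale.Agent.P078.AllMasa.Ops

/-! Algebra of normalising partial isometries: the expectation is equivariant for them. -/

namespace Vale.Agent.P078.AllMasa

set_option linter.unusedSectionVars false

open Filter Topology ComplexOrder
open Vale.Agent.P078.Tracial

variable {M X : Type} [CStarAlgebra M] [PartialOrder M] [StarOrderedRing M]
variable [TopologicalSpace X] [CompactSpace X] [T2Space X] [TotallyDisconnectedSpace X]

namespace SCore

variable (C : SCore M X)

theorem φ_im_eq_zero (b : M) : (C.φ (star b * b)).im = 0 :=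
  (Complex.le_def.1 (C.φ_pos b)).2.symm.trans Complex.zero_im

theorem tr_star (a : M) : C.tr (star a) = C.tr a := by
  have h1 := C.φ_im_eq_zero (1 + Complex.I • a)
  have h2 := C.φ_im_eq_zero a
  have e : star (1 + Complex.I • a) * (1 + Complex.I • a) =
      1 + Complex.I • a + (-Complex.I) • star a + star a * a := by
    simp only [star_add, star_one, star_smul, Complex.star_def, Complex.conj_I, add_mul, mul_add,
      one_mul, mul_one, smul_mul_assoc, mul_smul_comm, smul_add, smul_smul, mul_neg,
      Complex.I_mul_I, neg_neg, one_smul]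
    abel
  rw [e] at h1
  simp [C.φ_one, h2] at h1
  simp only [tr]
  linarith

theorem r_injective {f g : C(X, ℝ)} (h : C.r f = C.r g) : f = g := by
  rw [← C.Er_r f, h, C.Er_r]

theorem ι_comm_r (h : C(X, ℂ)) (f : C(X, ℝ)) : C.ι h * C.r f = C.r f * C.ι h := by
  rw [r, ← map_mul, mul_comm, map_mul]

theorem φ_r_mul (f : C(X, ℝ)) (z : M) : C.φ (C.r f * z) = C.φ (C.r f * C.ι (C.E z)) := by
  have h : C.E (C.r f * z) = toC f * C.E z := by simpa [r] using C.E_bimod (toC f) 1 z
  rw [← C.φ_E, h, map_mul]
  rfl

theorem toC_decomp (h : C(X, ℂ)) :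
    h = toC (reC h) + Complex.I • toC (reC ((-Complex.I) • h)) := by
  ext x
  simp [mul_comm Complex.I]

/-- A complex function is determined by the state on its products with real functions. -/
theorem eq_zero_of_φ_r_mul {h : C(X, ℂ)} (h0 : ∀ f, C.φ (C.r f * C.ι h) = 0) : h = 0 := by
  have h1 : C.ι h = 0 := by
    refine C.φ_faithful _ ?_
    rw [← map_star, toC_decomp (star h), map_add, map_smul, add_mul, smul_mul_assoc, map_add,
      map_smul]
    change C.φ (C.r _ * _) + Complex.I • C.φ (C.r _ * _) = 0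
    rw [h0, h0, smul_zero, add_zero]
  rw [← C.E_ι h, h1, map_zero]

end SCore

namespace IsNrm

variable {C : SCore M X} {v w : M}

theorem one : IsNrm C (1 : M) :=
  ⟨by simp, fun f => ⟨f, by simp⟩, fun f => ⟨f, by simp⟩⟩

theorem star_partial (hv : IsNrm C v) : star v * v * star v = star v := by
  have := congrArg star hv.partial_iso
  simpa [mul_assoc] using this

protected theorem star (hv : IsNrm C v) : IsNrm C (star v) :=
  ⟨by simpa using hv.star_partial, fun f => by simpa using hv.right f,
    fun f => by simpa using hv.left f⟩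

theorem exists_vv (hv : IsNrm C v) : ∃ q, v * star v = C.r q := by
  obtain ⟨q, hq⟩ := hv.left 1
  exact ⟨q, by simpa [C.r_one] using hq⟩

theorem exists_sv (hv : IsNrm C v) : ∃ q, star v * v = C.r q := by
  obtain ⟨q, hq⟩ := hv.right 1
  exact ⟨q, by simpa [C.r_one] using hq⟩

theorem vv_comm (hv : IsNrm C v) (f : C(X, ℝ)) :
    v * star v * C.r f = C.r f * (v * star v) := by
  obtain ⟨q, hq⟩ := hv.exists_vv
  rw [hq, C.r_comm]

theorem sv_comm (hv : IsNrm C v) (f : C(X, ℝ)) :
    star v * v * C.r f = C.r f * (star v * v) := by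
  obtain ⟨q, hq⟩ := hv.exists_sv
  rw [hq, C.r_comm]

theorem conj_mul (hv : IsNrm C v) (f : C(X, ℝ)) :
    v * C.r f * star v * v = v * C.r f := by
  rw [mul_assoc (v * C.r f), mul_assoc v, ← hv.sv_comm, ← mul_assoc, ← mul_assoc,
    hv.partial_iso]

theorem mul_conj (hv : IsNrm C v) (f : C(X, ℝ)) :
    star v * (v * C.r f * star v) = C.r f * star v := by
  rw [← mul_assoc, ← mul_assoc, hv.sv_comm, mul_assoc, hv.star_partial]

protected theorem mul (hv : IsNrm C v) (hw : IsNrm C w) : IsNrm C (v * w) := by
  obtain ⟨q, hq⟩ := hw.exists_vv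
  refine ⟨?_, fun f => ?_, fun f => ?_⟩
  · calc v * w * star (v * w) * (v * w) = v * ((w * star w) * (star v * v)) * w := by
          simp only [star_mul, mul_assoc]
      _ = (v * star v * v) * (w * star w * w) := by
          rw [hq, ← hv.sv_comm, ← hq]; simp only [mul_assoc]
      _ = v * w := by rw [hv.partial_iso, hw.partial_iso]
  · obtain ⟨g, hg⟩ := hw.left f
    obtain ⟨g', hg'⟩ := hv.left g
    exact ⟨g', by rw [← hg', ← hg, star_mul]; simp only [mul_assoc]⟩
  · obtain ⟨g, hg⟩ := hv.right f
    obtain ⟨g', hg'⟩ := hw.right g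
    exact ⟨g', by rw [← hg', ← hg, star_mul]; simp only [mul_assoc]⟩

theorem left_ι (hv : IsNrm C v) (h : C(X, ℂ)) : ∃ k, v * C.ι h * star v = C.ι k := by
  obtain ⟨g1, h1⟩ := hv.left (reC h)
  obtain ⟨g2, h2⟩ := hv.left (reC ((-Complex.I) • h))
  refine ⟨toC g1 + Complex.I • toC g2, ?_⟩
  conv_lhs => rw [SCore.toC_decomp h]
  rw [map_add, map_add, map_smul, map_smul]
  change v * (C.r _ + Complex.I • C.r _) * star v = C.r g1 + Complex.I • C.r g2
  rw [mul_add, add_mul, mul_smul_comm, smul_mul_assoc, h1, h2]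

/-- The expectation is equivariant. -/
theorem E_conj (hv : IsNrm C v) (x : M) :
    C.ι (C.E (v * x * star v)) = v * C.ι (C.E x) * star v := by
  obtain ⟨k, hk⟩ := hv.left_ι (C.E x)
  suffices h : C.E (v * x * star v) - k = 0 by rw [sub_eq_zero.1 h, hk]
  refine C.eq_zero_of_φ_r_mul fun f => ?_
  rw [map_sub, mul_sub, map_sub, ← C.φ_r_mul, sub_eq_zero, ← hk]
  refine tendsto_nhds_unique ?_ (by
    simpa only [mul_assoc] using C.pinch_tendsto (C.r f * v) x (star v))
  refine tendsto_const_nhds.congr fun π => ?_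
  choose g hg using fun i : π => hv.left (cellFn π i)
  have hterm : ∀ i : π, C.φ (C.r f * (v * (C.r (cellFn π i) * (x * (C.r (cellFn π i) * star v))))) =
      C.φ (C.r f * (C.r (g i) * C.r (g i)) * (v * x * star v)) := by
    intro i
    have e1 : v * C.r (cellFn π i) = C.r (g i) * v := by rw [← hg i, hv.conj_mul]
    have e2 : C.r (cellFn π i) * star v = star v * C.r (g i) := by rw [← hg i, hv.mul_conj]
    have e3 : C.r f * (v * (C.r (cellFn π i) * (x * (C.r (cellFn π i) * star v)))) =
        (C.r f * C.r (g i) * (v * x * star v)) * C.r (g i) := by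
      rw [e2, ← mul_assoc v, e1]; simp only [mul_assoc]
    rw [e3]
    refine (C.φ_ι_comm (toC (g i)) _).symm.trans (congrArg C.φ ?_)
    change C.r (g i) * _ = _
    simp only [← mul_assoc]
    rw [C.r_comm (g i) f]
  have hsum : ∑ i : π, C.r (g i) * C.r (g i) = v * star v := by
    classical
    have : ∀ i : π, C.r (g i) * C.r (g i) = v * C.r (cellFn π i) * star v := fun i => by
      rw [← hg i, ← mul_assoc, ← mul_assoc, hv.conj_mul, mul_assoc v, ← C.r_mul,
        cellFn_mul_cellFn, if_pos rfl]
    simp only [this, ← Finset.sum_mul, ← Finset.mul_sum, ← C.r_sum, sum_cellFn, C.r_one, mul_one]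
  have hx : v * x * star v = v * star v * (v * x * star v) := by
    simp only [← mul_assoc, hv.partial_iso]
  calc C.φ (C.r f * (v * x * star v))
      = C.φ (∑ i : π, C.r f * (C.r (g i) * C.r (g i)) * (v * x * star v)) := by
        rw [← Finset.sum_mul, ← Finset.mul_sum, hsum, mul_assoc (C.r f), ← hx]
    _ = ∑ i : π, C.φ (C.r f * (v * (C.r (cellFn π i) * (x * (C.r (cellFn π i) * star v))))) := by
        rw [map_sum]; exact Finset.sum_congr rfl fun i _ => (hterm i).symm
    _ = _ := by
        rw [← map_sum]; congr 1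
        simp only [SCore.r, Finset.mul_sum, Finset.sum_mul, mul_assoc]

/-- Moving a normalising partial isometry through the expectation. -/
theorem move_E (hv : IsNrm C v) (x : M) :
    v * C.ι (C.E (star v * x)) = C.ι (C.E (x * star v)) * v := by
  obtain ⟨q, hq⟩ := hv.exists_vv
  obtain ⟨q', hq'⟩ := hv.exists_sv
  have h1 := hv.E_conj (star v * x)
  have h2 : C.E (v * (star v * x) * star v) = toC q * C.E (x * star v) := by
    have : v * (star v * x) * star v = C.ι (toC q) * (x * star v) * C.ι 1 := by
      change _ = C.r q * (x * star v) * C.ι 1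
      rw [map_one, mul_one, ← hq]; simp only [mul_assoc]
    rw [this, C.E_bimod, mul_one]
  rw [h2, map_mul] at h1
  change C.r q * _ = _ at h1
  calc v * C.ι (C.E (star v * x))
      = v * (star v * v) * C.ι (C.E (star v * x)) := by rw [← mul_assoc v, hv.partial_iso]
    _ = v * C.ι (C.E (star v * x)) * star v * v := by
        rw [mul_assoc v, hq', ← C.ι_comm_r, ← hq']; simp only [mul_assoc]
    _ = C.r q * C.ι (C.E (x * star v)) * v := by rw [h1]
    _ = C.ι (C.E (x * star v)) * v := by
        rw [← C.ι_comm_r, mul_assoc, ← hq, hv.partial_iso]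

end IsNrm

end Vale.Agent.P078.AllMasa
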