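import Vale.Agent.P078.AllMasa.Cov.Form

/-! Rows of the smoothed projection and the contraction they are moved by. -/

namespace Vale.Agent.P078.AllMasa

set_option linter.unusedSectionVars false

open Filter Topology ComplexOrder
open Vale.Agent.P078.Tracial

variable {M X : Type} [CStarAlgebra M] [PartialOrder M] [StarOrderedRing M]
variable [TopologicalSpace X] [CompactSpace X] [T2Space X] [TotallyDisconnectedSpace X]

/-- The complement of an endomorphism. -/
noncomputable def oneSub {V : Type*} [AddCommGroup V] [Module ℝ V] (x : Module.End ℝ V) :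
    Module.End ℝ V := 1 - x

theorem oneSub_apply {V : Type*} [AddCommGroup V] [Module ℝ V] (x : Module.End ℝ V) (v : V) :
    oneSub x v = v - x v := rfl

namespace LData

variable {r : ℕ} (d : LData X r)

theorem Lc_apply (c : Fin r) (f : C(X, ℝ)) :
    d.Lc c f = d.act c * (d.e c * (d.act c * f) - (d.F c).K (d.act c * f)) := rfl

theorem Lc_eq (c : Fin r) :
    d.Lc c = mulC (d.act c) * (mulC (d.e c) - (d.F c).Kl) * mulC (d.act c) :=
  LinearMap.ext fun f => by simp [Lc_apply]

theorem L_apply (u : Fin r → C(X, ℝ)) : d.L u = ∑ c, d.Lc c (u c) := by simp [L]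

theorem step_apply (u : Fin r → C(X, ℝ)) (c : Fin r) :
    d.step u c = u c - d.Tn⁻¹ • d.Lc c (d.L u) := by
  simp [step]

theorem cut_apply (u : Fin r → C(X, ℝ)) (c : Fin r) : d.cut u c = d.act c * u c := rfl

variable {d}

theorem act_mul_act (hd : d.Ok) (c : Fin r) : d.act c * d.act c = d.act c := by
  ext x
  rcases hd.act_01 c x with h | h <;> simp [h]

theorem U_mul_act (hd : d.Ok) (c : Fin r) : d.U * d.act c = d.act c := by
  ext x
  rcases hd.act_01 c x with h | h
  · simp [h]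
  · rcases hd.U_01 x with h' | h'
    · linarith [hd.act_le c x]
    · simp [h']

theorem Lc_act (hd : d.Ok) (c : Fin r) (f : C(X, ℝ)) : d.Lc c (d.act c * f) = d.Lc c f := by
  simp only [Lc_apply, ← mul_assoc (d.act c) (d.act c) f, act_mul_act hd]

theorem act_Lc (hd : d.Ok) (c : Fin r) (f : C(X, ℝ)) : d.act c * d.Lc c f = d.Lc c f := by
  simp only [Lc_apply, ← mul_assoc (d.act c) (d.act c), act_mul_act hd]

theorem L_cut (hd : d.Ok) (u : Fin r → C(X, ℝ)) : d.L (d.cut u) = d.L u := by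
  simp [L_apply, cut_apply, Lc_act hd]

theorem cut_step_comm (hd : d.Ok) : Commute d.cut d.step := by
  refine LinearMap.ext fun u => funext fun c => ?_
  simp [cut_apply, step_apply, L_cut hd, act_Lc hd, mul_sub]

theorem P_eq (hd : d.Ok) (n : ℕ) (u : Fin r → C(X, ℝ)) : d.P n u = d.cut ((d.step ^ n) u) := by
  rw [P, LinearMap.comp_apply, ← Module.End.mul_apply, ← ((cut_step_comm hd).pow_right n).eq,
    Module.End.mul_apply]

theorem act_P (hd : d.Ok) (n : ℕ) (u : Fin r → C(X, ℝ)) (c : Fin r) :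
    d.act c * d.P n u c = d.P n u c := by
  rw [P_eq hd, cut_apply, ← mul_assoc, act_mul_act hd]

theorem P_P (hd : d.Ok) (n : ℕ) (u : Fin r → C(X, ℝ)) : d.P n (d.P n u) = d.P (2 * n) u := by
  have h : ∀ w : Fin r → C(X, ℝ), d.cut (d.cut w) = d.cut w := fun w =>
    funext fun c => by simp only [cut_apply, ← mul_assoc, act_mul_act hd]
  calc d.P n (d.P n u) = d.cut ((d.step ^ n) (d.cut ((d.step ^ n) u))) := by
        rw [P_eq hd, P_eq hd]
    _ = d.cut (d.cut ((d.step ^ n) ((d.step ^ n) u))) := by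
        rw [← Module.End.mul_apply _ d.cut, ← ((cut_step_comm hd).pow_right n).eq,
          Module.End.mul_apply]
    _ = d.P (2 * n) u := by
        rw [h, P_eq hd, two_mul, pow_add, Module.End.mul_apply]

variable (d)

/-- A row of operators applied to a vector. -/
def toRow (u : Fin r → Module.End ℝ C(X, ℝ)) (w : Fin r → C(X, ℝ)) : C(X, ℝ) := ∑ c, u c (w c)

/-- One step of the smoothing on rows. -/
noncomputable def rowStep (u : Fin r → Module.End ℝ C(X, ℝ)) :
    Fin r → Module.End ℝ C(X, ℝ) :=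
  fun c => u c - d.Tn⁻¹ • ((∑ c', u c' * d.Lc c') * d.Lc c)

theorem toRow_rowStep (u : Fin r → Module.End ℝ C(X, ℝ)) (w : Fin r → C(X, ℝ)) :
    toRow (d.rowStep u) w = toRow u (d.step w) := by
  simp only [toRow, rowStep, step_apply, LinearMap.sub_apply, LinearMap.smul_apply,
    Module.End.mul_apply, LinearMap.sum_apply, map_sub, map_smul, Finset.sum_sub_distrib,
    ← Finset.smul_sum]
  rw [Finset.sum_comm]
  simp [L_apply, map_sum]

/-- One row of a smoothed projection. -/
noncomputable def rowPow (W : Module.End ℝ C(X, ℝ)) (c : Fin r) :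
    ℕ → (Fin r → Module.End ℝ C(X, ℝ))
  | 0 => Pi.single c (W * mulC (d.act c))
  | n + 1 => d.rowStep (rowPow W c n)

theorem toRow_rowPow (W : Module.End ℝ C(X, ℝ)) (c : Fin r) (n : ℕ) (w : Fin r → C(X, ℝ)) :
    toRow (d.rowPow W c n) w = W (d.cut ((d.step ^ n) w) c) := by
  induction n generalizing w with
  | zero =>
    simp only [rowPow, toRow, pow_zero, Module.End.one_apply, cut_apply]
    rw [Finset.sum_eq_single c (fun c' _ h => by simp [Pi.single_eq_of_ne h]) (by simp)]
    simp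
  | succ n ih =>
    rw [rowPow, toRow_rowStep, ih, pow_succ, Module.End.mul_apply]

variable {d}

theorem rowPow_cell (hd : d.Ok) (W : Module.End ℝ C(X, ℝ)) (c c' : Fin r) (n : ℕ)
    (π : DiscreteQuotient X) (j : π) :
    d.rowPow W c n c' (cellFn π j) = W (d.P n (unitVec π c' j) c) := by
  rw [P_eq hd, ← toRow_rowPow, toRow]
  rw [Finset.sum_eq_single c' (fun b _ h => by simp [unitVec, Pi.single_eq_of_ne h]) (by simp)]
  simp [unitVec]

theorem Tn_pos (hd : d.Ok) : 0 < d.Tn := by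
  have := hd.B_pos
  rw [Tn]
  positivity

/-- One colour of the linearised budget inside the algebra. -/
noncomputable def lcS (d : LData X r) (C : SCore M X) (hF : ∀ c, (d.F c).FromNrm C) (c : Fin r) :
    C.ops :=
  C.mulS (d.act c) * (C.mulS (d.e c) - (d.F c).toOps C (hF c)) * C.mulS (d.act c)

variable {C : SCore M X} {hF : ∀ c, (d.F c).FromNrm C}

@[simp] theorem coe_lcS (c : Fin r) :
    (d.lcS C hF c : Module.End ℝ C(X, ℝ)) = d.Lc c := by
  simp [lcS, Lc_eq, Fam.coe_toOps]

theorem adj_lcS (hd : d.Ok) (c : Fin r) : C.Adj (d.lcS C hF c) (d.lcS C hF c) := by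
  have h := ((SCore.adj_mulS (C := C) (d.act c)).mul
    ((SCore.adj_mulS (C := C) (d.e c)).sub (Fam.adj_toOps (hd.symm c) (hF c)))).mul
      (SCore.adj_mulS (C := C) (d.act c))
  rwa [← mul_assoc] at h

theorem nrm_lcS_le (hd : d.Ok) {G : M} (hG : 0 ≤ G) (a : M) (A : C.ops) (c : Fin r) :
    CovForm.nrm (V := C.ops) (C.form G a) (A * d.lcS C hF c) ≤
      2 * d.B * CovForm.nrm (V := C.ops) (C.form G a) A := by
  have hI := C.isSemi_form hG a
  have hact : ∀ Y : C.ops, CovForm.nrm (V := C.ops) (C.form G a) (Y * C.mulS (d.act c)) ≤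
      CovForm.nrm (V := C.ops) (C.form G a) Y := fun Y =>
    (C.nrm_mulS_le hG a Y zero_le_one fun x => by
      rcases hd.act_01 c x with h | h <;> simp [h]).trans_eq (one_mul _)
  set Y := A * C.mulS (d.act c) with hY
  have e : A * d.lcS C hF c = (Y * C.mulS (d.e c) +
      (-1 : ℝ) • (Y * (d.F c).toOps C (hF c))) * C.mulS (d.act c) :=
    Subtype.ext (LinearMap.ext fun f => by simp [hY, lcS, mul_assoc, sub_eq_add_neg, mul_add])
  rw [e]
  refine (hact _).trans ((CovForm.nrm_add_le hI _ _).trans ?_)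
  have h1 := C.nrm_mulS_le hG a Y hd.B_pos.le (h := d.e c) fun x =>
    abs_le.2 ⟨by linarith [ContinuousMap.le_def.1 (hd.e_nonneg c) x, hd.B_pos,
      show (0 : C(X, ℝ)) x = 0 from rfl], hd.e_le c x⟩
  have h2 := Fam.nrm_toOps_le (hd.symm c) (hF c) hd.B_pos.le (hd.K_le c) hG a Y
  have h3 := hact A
  have h4 : ∀ Z : C.ops, CovForm.nrm (V := C.ops) (C.form G a) ((-1 : ℝ) • Z) =
      CovForm.nrm (V := C.ops) (C.form G a) Z := fun Z => by simp [CovForm.nrm]
  rw [h4]
  nlinarith [hd.B_pos]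

variable (d C hF)

/-- The form on rows. -/
noncomputable def ipR (G a : M) : (Fin r → C.ops) →ₗ[ℝ] (Fin r → C.ops) →ₗ[ℝ] ℝ :=
  ∑ c, (C.form G a).compl₁₂ (LinearMap.proj c) (LinearMap.proj c)

theorem ipR_apply (G a : M) (u v : Fin r → C.ops) :
    ipR C G a u v = ∑ c, C.form G a (u c) (v c) := by
  simp [ipR]

theorem isSemi_ipR {G : M} (hG : 0 ≤ G) (a : M) :
    CovForm.IsSemi (V := Fin r → C.ops) (ipR C G a) :=
  ⟨fun u v => by
    simp only [ipR_apply, C.form_symm (IsSelfAdjoint.of_nonneg hG) a],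
   fun v => by
    rw [ipR_apply]
    exact Finset.sum_nonneg fun c _ => (C.isSemi_form hG a).nonneg _⟩

/-- The sum of a row against the colours. -/
noncomputable def rowSum : (Fin r → C.ops) →ₗ[ℝ] C.ops :=
  ∑ c, (LinearMap.mulRight ℝ (d.lcS C hF c)).comp (LinearMap.proj c)

/-- The contraction on rows. -/
noncomputable def xV : Module.End ℝ (Fin r → C.ops) :=
  d.Tn⁻¹ • LinearMap.pi fun c => (LinearMap.mulRight ℝ (d.lcS C hF c)).comp (d.rowSum C hF)

/-- The normalised square of the budget. -/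
noncomputable def yOp : C.ops := d.Tn⁻¹ • ∑ c, d.lcS C hF c * d.lcS C hF c

/-- The contraction on single operators. -/
noncomputable def yS : Module.End ℝ C.ops := LinearMap.mulRight ℝ (d.yOp C hF)

/-- One row inside the algebra. -/
noncomputable def rowS (W : C.ops) (c : Fin r) (n : ℕ) : Fin r → C.ops :=
  ((oneSub (V := Fin r → C.ops) (d.xV C hF)) ^ n) (Pi.single c (W * C.mulS (d.act c)))

variable {d C hF}

theorem rowSum_apply (u : Fin r → C.ops) : d.rowSum C hF u = ∑ c, u c * d.lcS C hF c := by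
  simp [rowSum]

theorem xV_apply (u : Fin r → C.ops) (c : Fin r) :
    d.xV C hF u c = d.Tn⁻¹ • (d.rowSum C hF u * d.lcS C hF c) := by
  simp [xV]

theorem coe_rowS (W : C.ops) (c : Fin r) (n : ℕ) (c' : Fin r) :
    (d.rowS C hF W c n c' : Module.End ℝ C(X, ℝ)) =
      d.rowPow (W : Module.End ℝ C(X, ℝ)) c n c' := by
  induction n generalizing c' with
  | zero =>
    by_cases h : c' = c
    · subst h; simp [rowS, rowPow]
    · simp [rowS, rowPow, Pi.single_eq_of_ne h]
  | succ n ih =>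
    rw [rowS, pow_succ', Module.End.mul_apply, oneSub_apply, ← rowS,
      Pi.sub_apply, xV_apply, rowPow, rowStep, Subalgebra.coe_sub, Subalgebra.coe_smul,
      Subalgebra.coe_mul, coe_lcS, ih, rowSum_apply]
    simp [ih]

theorem ipR_xV (hd : d.Ok) (G a : M) (u v : Fin r → C.ops) :
    ipR C G a (d.xV C hF u) v = d.Tn⁻¹ * C.form G a (d.rowSum C hF u) (d.rowSum C hF v) := by
  rw [ipR_apply]
  simp only [xV_apply, map_smul, LinearMap.smul_apply, smul_eq_mul, adj_lcS hd _ G a,
    ← Finset.mul_sum, ← map_sum, rowSum_apply]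

theorem isPosContr_xV (hd : d.Ok) {G : M} (hG : 0 ≤ G) (a : M) :
    CovForm.IsPosContr (V := Fin r → C.ops) (ipR C G a) (d.xV C hF) := by
  have hI := C.isSemi_form hG a
  have hR := isSemi_ipR (r := r) C hG a
  refine ⟨fun u v => ?_, fun v => ?_, fun v => ?_⟩
  · rw [hR.symm u, ipR_xV hd, ipR_xV hd, hI.symm]
  · rw [hR.symm, ipR_xV hd]
    exact mul_nonneg (inv_nonneg.2 (Tn_pos hd).le) (hI.nonneg _)
  · rw [hR.symm, ipR_xV hd, inv_mul_le_iff₀ (Tn_pos hd)]
    set n1 : C.ops → ℝ := CovForm.nrm (V := C.ops) (C.form G a)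
    have h1 : n1 (d.rowSum C hF v) ^ 2 ≤
        2 * d.B * (∑ c, n1 (v c)) * n1 (d.rowSum C hF v) := by
      rw [CovForm.nrm_sq hI]
      conv_lhs => enter [1, 2]; rw [rowSum_apply]
      simp only [map_sum, LinearMap.sum_apply, Finset.mul_sum, Finset.sum_mul]
      refine Finset.sum_le_sum fun c _ => (le_of_abs_le (CovForm.abs_le_nrm hI _ _)).trans ?_
      exact mul_le_mul_of_nonneg_right (nrm_lcS_le hd hG a _ c) (CovForm.nrm_nonneg _)
    have h0 : 0 ≤ n1 (d.rowSum C hF v) := CovForm.nrm_nonneg _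
    have hS : 0 ≤ 2 * d.B * ∑ c, n1 (v c) :=
      mul_nonneg (by linarith [hd.B_pos]) (Finset.sum_nonneg fun c _ => CovForm.nrm_nonneg _)
    have h2 : n1 (d.rowSum C hF v) ≤ 2 * d.B * ∑ c, n1 (v c) := by
      rcases h0.eq_or_lt with h | h
      · rw [← h]; exact hS
      · exact le_of_mul_le_mul_right (by rwa [sq] at h1) h
    have h3 : (∑ c, n1 (v c)) ^ 2 ≤ (r : ℝ) * ∑ c, n1 (v c) ^ 2 := by
      simpa using sq_sum_le_card_mul_sum_sq (s := (Finset.univ : Finset (Fin r)))
        (f := fun c => n1 (v c))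
    have h4 : ∑ c, n1 (v c) ^ 2 = ipR C G a v v := by
      simp only [n1, CovForm.nrm_sq hI, ipR_apply]
    have h5 := hR.nonneg v
    calc C.form G a (d.rowSum C hF v) (d.rowSum C hF v) = n1 (d.rowSum C hF v) ^ 2 :=
          (CovForm.nrm_sq hI _).symm
      _ ≤ (2 * d.B * ∑ c, n1 (v c)) ^ 2 := pow_le_pow_left₀ h0 h2 2
      _ ≤ (2 * d.B) ^ 2 * ((r : ℝ) * ipR C G a v v) := by
          rw [mul_pow, ← h4]
          exact mul_le_mul_of_nonneg_left h3 (sq_nonneg _)
      _ ≤ d.Tn * ipR C G a v v := by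
          rw [Tn]; nlinarith [mul_nonneg (sq_nonneg (2 * d.B)) h5]

theorem isPosContr_yS (hd : d.Ok) {G : M} (hG : 0 ≤ G) (a : M) :
    CovForm.IsPosContr (V := C.ops) (C.form G a) (d.yS C hF) := by
  have hI := C.isSemi_form hG a
  have hadj : C.Adj (d.yOp C hF) (d.yOp C hF) :=
    (SCore.adj_sum _ _ _ fun c _ => (adj_lcS hd c).mul (adj_lcS hd c)).smul _
  have hv : ∀ v, C.form G a v (d.yS C hF v) =
      d.Tn⁻¹ * ∑ c, C.form G a (v * d.lcS C hF c) (v * d.lcS C hF c) := fun v => by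
    simp only [yS, yOp, LinearMap.mulRight_apply, mul_smul_comm, map_smul, smul_eq_mul,
      Finset.mul_sum, map_sum, ← mul_assoc, adj_lcS hd _ G a v]
  refine ⟨fun u v => ?_, fun v => ?_, fun v => ?_⟩
  · simp only [yS, LinearMap.mulRight_apply, hadj G a]
  · rw [hv]
    exact mul_nonneg (inv_nonneg.2 (Tn_pos hd).le) (Finset.sum_nonneg fun c _ => hI.nonneg _)
  · rw [hv, inv_mul_le_iff₀ (Tn_pos hd)]
    have hb : ∀ c, C.form G a (v * d.lcS C hF c) (v * d.lcS C hF c) ≤
        (2 * d.B) ^ 2 * C.form G a v v := fun c => by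
      rw [← CovForm.nrm_sq hI, ← CovForm.nrm_sq hI v, ← mul_pow]
      exact pow_le_pow_left₀ (CovForm.nrm_nonneg _) (nrm_lcS_le hd hG a v c) 2
    refine (Finset.sum_le_sum fun c _ => hb c).trans ?_
    rw [Finset.sum_const, Finset.card_univ, Fintype.card_fin, nsmul_eq_mul, Tn]
    nlinarith [mul_nonneg (sq_nonneg (2 * d.B)) (hI.nonneg v)]

end LData

end Vale.Agent.P078.AllMasa
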